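import Vale.Agent.P235.K5.H492.Int4
import Vale.Agent.P235.H141.Struct

/-!
# The decomposition into internally 4-connected minors (helper492)
-/

set_option autoImplicit false

namespace Vale.Agent.P235.K5.H492

open SimpleGraph Vale.Agent.P235.K5 Vale.Agent.P235.H134 Vale.Agent.P235.H56
open Vale.Agent.P235.K5.H281

/-- a 3-connected graph which is not internally 4-connected has a cut of three vertices, both sides
of which, with the triangle, are minors -/
theorem cut3 {V : Type} [Finite V] {G : SimpleGraph V} (hG : G.Connected) (h3 : Conn3 G)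
    (h4 : ¬ Int4 G) {R : Set V} (hR : ∀ u ∈ R, ∀ v ∈ R, u ≠ v → G.Adj u v) :
    ∃ X Y S : Set V, S.ncard ≤ 3 ∧ Cut G R X Y S := by
  classical
  obtain ⟨S, C, D, hSc, hCD, hCS, hDS, hU, hno, hC, hD⟩ : ∃ S C D : Set V, S.ncard ≤ 3 ∧
      Disjoint C D ∧ Disjoint C S ∧ Disjoint D S ∧ C ∪ D ∪ S = Set.univ ∧
      (∀ u ∈ C, ∀ v ∈ D, ¬ G.Adj u v) ∧ ¬ C.Subsingleton ∧ ¬ D.Subsingleton := by
    by_contra hno
    refine h4 ⟨h3, fun S C D a b c d e f => ?_⟩
    by_contra hor
    exact hno ⟨S, C, D, a, b, c, d, e, f, fun h => hor (Or.inl h), fun h => hor (Or.inr h)⟩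
  have hne : ∀ M : Set V, ¬ M.Subsingleton → M.Nonempty := by
    intro M hM
    rcases M.eq_empty_or_nonempty with h | h
    · exact absurd (h ▸ Set.subsingleton_empty) hM
    · exact h
  have hall : ∀ v, v ∈ C ∨ v ∈ D ∨ v ∈ S := by
    intro v
    have : v ∈ C ∪ D ∪ S := by rw [hU]; trivial
    rcases this with (h | h) | h
    · exact Or.inl h
    · exact Or.inr (Or.inl h)
    · exact Or.inr (Or.inr h)
  have hNC : ∀ u ∈ C, ∀ v, G.Adj u v → v ∈ C ∨ v ∈ S := by
    intro u hu v huv
    rcases hall v with h | h | h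
    · exact Or.inl h
    · exact absurd huv (hno u hu v h)
    · exact Or.inr h
  have hND : ∀ u ∈ D, ∀ v, G.Adj u v → v ∈ D ∨ v ∈ S := by
    intro u hu v huv
    rcases hall v with h | h | h
    · exact absurd huv.symm (hno v h u hu)
    · exact Or.inl h
    · exact Or.inr h
  obtain ⟨d, hd⟩ := hne D hD
  have hdC : d ∉ C := fun h => Set.disjoint_left.1 hCD h hd
  have hdS : d ∉ S := Set.disjoint_left.1 hDS hd
  -- `S` has three vertices
  have hbad : ∀ s t : V, s ∉ C → t ∉ C → S ⊆ {s, t} → ∀ y, y ∈ C ∨ y = s ∨ y = t :=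
    fun s t hs ht hst => h3 s t C (hne C hC) hs ht fun u hu v huv =>
      (hNC u hu v huv).imp_right fun h => hst h
  have h3c : S.ncard = 3 := by
    by_contra hne3
    have h012 : S.ncard = 0 ∨ S.ncard = 1 ∨ S.ncard = 2 := by omega
    rcases h012 with h | h | h
    · have hS : S = ∅ := (Set.ncard_eq_zero (Set.toFinite S)).1 h
      refine hD fun a ha b hb => ?_
      have key : ∀ a ∈ D, a = d := by
        intro a ha
        rcases hbad d d hdC hdC (by rw [hS]; exact Set.empty_subset _) a with h' | h' | h'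
        · exact absurd ha (Set.disjoint_left.1 hCD h')
        · exact h'
        · exact h'
      rw [key a ha, key b hb]
    · obtain ⟨s, hs⟩ := Set.ncard_eq_one.1 h
      have hsS : s ∈ S := by rw [hs]; rfl
      have hsC : s ∉ C := fun h' => Set.disjoint_left.1 hCS h' hsS
      rcases hbad s s hsC hsC (by rw [hs]; simp) d with h' | h' | h'
      · exact hdC h'
      · exact hdS (h' ▸ hsS)
      · exact hdS (h' ▸ hsS)
    · obtain ⟨s, t, -, hst⟩ := Set.ncard_eq_two.1 h
      have hsS : s ∈ S := by rw [hst]; exact Or.inl rfl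
      have htS : t ∈ S := by rw [hst]; exact Or.inr rfl
      rcases hbad s t (fun h' => Set.disjoint_left.1 hCS h' hsS)
        (fun h' => Set.disjoint_left.1 hCS h' htS) (by rw [hst]) d with h' | h' | h'
      · exact hdC h'
      · exact hdS (h' ▸ hsS)
      · exact hdS (h' ▸ htS)
  obtain ⟨x, y, z, hxy, hxz, hyz, hS⟩ := Set.ncard_eq_three.1 h3c
  have hinj : Function.Injective (![x, y, z] : Fin 3 → V) := by
    intro i j hij
    fin_cases i <;> fin_cases j <;> simp_all
  have hSs : ∀ v ∈ S, v = (![x, y, z] : Fin 3 → V) 0 ∨ v = (![x, y, z] : Fin 3 → V) 1 ∨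
      v = (![x, y, z] : Fin 3 → V) 2 := by
    intro v hv
    rw [hS] at hv
    exact hv
  have hsS : ∀ j, (![x, y, z] : Fin 3 → V) j ∈ S := by
    intro j
    rw [hS]
    fin_cases j <;> simp
  have mC : IsMinor ((G ⊔ clq S).induce (C ∪ S)) G :=
    side_minor h3 hinj (D := D) (X := C ∪ S) hSs (fun j => Or.inr (hsS j))
      (Set.disjoint_union_right.2 ⟨hCD.symm, hDS⟩)
      (fun u hu v huv => (hND u hu v huv).imp_right (hSs v)) hD
  have mD : IsMinor ((G ⊔ clq S).induce (D ∪ S)) G :=
    side_minor h3 hinj (D := C) (X := D ∪ S) hSs (fun j => Or.inr (hsS j))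
      (Set.disjoint_union_right.2 ⟨hCD, hCS⟩)
      (fun u hu v huv => (hNC u hu v huv).imp_right (hSs v)) hC
  obtain ⟨X, Y, h⟩ := cut_or hG hR ⟨x, by rw [hS]; exact Or.inl rfl⟩ hCD hCS hDS hU (hne C hC)
    ⟨d, hd⟩ hno mC mD
  exact ⟨X, Y, S, hSc, h⟩

/-- the connected, internally 4-connected minors of `G₀` -/
def PM {U : Type} (G₀ : SimpleGraph U) (V : Type) (G : SimpleGraph V) (_ : Set V) : Prop :=
  Finite V ∧ G.Connected ∧ Int4 G ∧ IsMinor G G₀

theorem int4_iso {V W : Type} {G : SimpleGraph V} {H : SimpleGraph W} (e : G ≃g H)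
    (h : Int4 G) : Int4 H := by
  refine ⟨H141.conn3_iso e h.1, fun S C D hS hCD hCS hDS hU hno => ?_⟩
  have hinj : Function.Injective e.symm := e.symm.injective
  have key := h.2 (e.symm '' S) (e.symm '' C) (e.symm '' D)
    (by rw [Set.ncard_image_of_injective _ hinj]; exact hS)
    ((Set.disjoint_image_iff hinj).2 hCD) ((Set.disjoint_image_iff hinj).2 hCS)
    ((Set.disjoint_image_iff hinj).2 hDS)
    (by rw [← Set.image_union, ← Set.image_union, hU, Set.image_univ]
        exact e.symm.surjective.range_eq)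
    (by
      rintro _ ⟨u, hu, rfl⟩ _ ⟨v, hv, rfl⟩ huv
      exact hno u hu v hv (e.symm.map_adj_iff.1 huv))
  exact key.imp (fun h => Set.subsingleton_of_image hinj C h)
    fun h => Set.subsingleton_of_image hinj D h

theorem pm_iso {U : Type} (G₀ : SimpleGraph U) : IsoInv (PM G₀) := by
  rintro V W G H e R ⟨h1, h2, h3, h4⟩
  refine ⟨Finite.of_equiv _ e.toEquiv, (Iso.connected_iff e).1 h2, int4_iso e h3,
    minor_trans ⟨fun w => {e.symm w}, fun w => conn_single _ _, fun a b hab => ?_,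
      fun a b hab => ⟨_, rfl, _, rfl, e.symm.map_adj_iff.2 hab⟩⟩ h4⟩
  rw [Set.disjoint_singleton]
  exact fun h => hab (e.symm.injective h)

/-- the induction hypothesis -/
def Smaller4 {U : Type} (G₀ : SimpleGraph U) (m : ℕ) : Prop :=
  ∀ (W : Type) [Finite W] (K : SimpleGraph W) (T : Set W), Nat.card W < m → K.Connected →
    IsMinor K G₀ → (∀ u ∈ T, ∀ v ∈ T, u ≠ v → K.Adj u v) → Rooted 3 (PM G₀) K T

theorem side4 {U : Type} {G₀ : SimpleGraph U} {V : Type} [Finite V] {G G' : SimpleGraph V}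
    (hm : IsMinor G G₀) {X T : Set V} (hTX : T ⊆ X) (hX : ∃ v, v ∉ X)
    (hmin : IsMinor (G'.induce X) G) (hcon : (G'.induce X).Connected)
    (hT : ∀ u ∈ T, ∀ v ∈ T, u ≠ v → G'.Adj u v) (IH : Smaller4 G₀ (Nat.card V)) :
    RootedOn 3 (PM G₀) G' X T := by
  refine RootedOn.of_induce (pm_iso G₀) hTX (IH X (G'.induce X) {x | (x : V) ∈ T} ?_ hcon
    (minor_trans hmin hm) ?_)
  · obtain ⟨v, hv⟩ := hX
    exact Finite.card_subtype_lt (p := fun x => x ∈ X) hv
  · intro u hu v hv huv
    exact hT u.1 hu v.1 hv fun e => huv (Subtype.ext e)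

theorem of_cut4 {U : Type} {G₀ : SimpleGraph U} {V : Type} [Finite V] {G : SimpleGraph V}
    (hm : IsMinor G G₀) {R X Y S : Set V} (h : Cut G R X Y S) (hS : S.ncard ≤ 3)
    (hR : ∀ u ∈ R, ∀ v ∈ R, u ≠ v → G.Adj u v) (IH : Smaller4 G₀ (Nat.card V)) :
    Rooted 3 (PM G₀) G R := by
  have hSY : S ⊆ Y := by rw [← h.inter]; exact Set.inter_subset_right
  have h1 := side4 hm h.root h.X_ne h.minX h.conX (fun u hu v hv huv => Or.inl (hR u hu v hv huv))
    IH
  have h2 := side4 hm hSY h.Y_ne h.minY h.conY clq_adj IH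
  have h3 := RootedOn.cat h.inter clq_adj hS (fun u hu hu' v hv hv' huv => ?_) h1 h2
  · rw [h.union] at h3
    exact h3.mono fun u _ v _ huv => Or.inl huv
  · rcases huv with huv | ⟨_, hu'', _⟩
    · exact h.no u hu hu' v hv hv' huv
    · exact hu' (hSY hu'')

/-- **The decomposition**, rooted at any clique. -/
theorem dec4 {U : Type} (G₀ : SimpleGraph U) : ∀ m, Smaller4 G₀ m := by
  intro m
  induction m with
  | zero => intro W _ K T h; omega
  | succ m ih =>
    intro W _ K T hW hK hm hT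
    have IH : Smaller4 G₀ (Nat.card W) := by
      intro W' _ K' T' h
      exact ih W' K' T' (by omega)
    by_cases h3 : Conn3 K
    · by_cases h4 : Int4 K
      · exact single' (pm_iso G₀) ⟨inferInstance, hK, h4, hm⟩
      · obtain ⟨X, Y, S, hS, h⟩ := cut3 hK h3 h4 hT
        exact of_cut4 hm h hS hT IH
    · obtain ⟨X, Y, S, hS, h⟩ := low hK h3 hT
      exact of_cut4 hm h (by omega) hT IH

theorem minor_self {V : Type} (G : SimpleGraph V) : IsMinor G G :=
  ⟨fun v => {v}, fun v => conn_single G v, fun a b hab => by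
    rw [Set.disjoint_singleton]; exact hab, fun a b hab => ⟨a, rfl, b, rfl, hab⟩⟩

/-- **Every finite connected graph is a spanning subgraph of a sum, over cliques with at most three
vertices, of its internally 4-connected connected minors.** -/
theorem int4_sum (V : Type) [Finite V] (G : SimpleGraph V) (hG : G.Connected) :
    ∃ H : SimpleGraph V, G ≤ H ∧ CliqueSum 3 (PM G) H := by
  have h : Rooted 3 (PM G) G ∅ := dec4 G (Nat.card V + 1) V G ∅ (Nat.lt_succ_self _) hG
    (minor_self G) (fun u hu => absurd hu (Set.notMem_empty u))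
  exact h.cliqueSum fun W K T h => h

/-- the same, for a class which contains the internally 4-connected minors -/
theorem int4_sum_of {P : ∀ V : Type, SimpleGraph V → Prop} (V : Type) [Finite V]
    (G : SimpleGraph V) (hG : G.Connected)
    (h : ∀ (W : Type) [Finite W] (H : SimpleGraph W), H.Connected → Int4 H → IsMinor H G →
      P W H) : ∃ H : SimpleGraph V, G ≤ H ∧ CliqueSum 3 (fun W K _ => K.Connected ∧ P W K) H := by
  obtain ⟨H, hle, n, B, hB, hp⟩ := int4_sum V G hG
  refine ⟨H, hle, n, B, hB, fun t ht => ?_⟩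
  obtain ⟨h1, h2, h3, h4⟩ := hp t ht
  have := h1
  exact ⟨h2, h _ _ h2 h3 h4⟩

end Vale.Agent.P235.K5.H492
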