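import Vale.Agent.P235.K5.H492.Ex4
import Vale.Agent.P235.K5.EX.H719.EI

/-!
# Quasi-4-connected minors which are `EdgeIso`: the graph is `EdgeIso` (helper492)
-/

set_option autoImplicit false

namespace Vale.Agent.P235.K5.H492

open SimpleGraph Vale.Agent.P235 Vale.Agent.P235.K5 Vale.Agent.P235.H134 Vale.Agent.P235.H56
open Vale.Agent.P235.K5.H281

/-- **Sums over at most three vertices, in terms of minors**: if all connected quasi-4-connected
minors of the connected graph `G` are `EdgeIso C`, then `G` is `EdgeIso K` and `c₁(G) ≤ K`. -/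
theorem ei4 (C : ℝ) : ∃ K : ℝ, 1 ≤ K ∧ ∀ (V : Type) [Finite V] (G : SimpleGraph V), G.Connected →
    (∀ (W : Type) [Finite W] (H : SimpleGraph W), H.Connected → Quasi4 H → IsMinor H G →
      EdgeIso H C) → EdgeIso G K ∧ DistortionLE G K := by
  obtain ⟨c1, h1, h1', hT⟩ := edgeExact_treewidth
  have hD : (0 : ℝ) < max C 1 := lt_of_lt_of_le one_pos (le_max_right _ _)
  have hc : 0 < min c1 (1 / max C 1) := lt_min h1 (by positivity)
  obtain ⟨K, hK1, hK⟩ := EX.H719.ei EX.H452.px3 EX.H371.px2 (min c1 (1 / max C 1)) hc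
    ((min_le_left _ _).trans h1')
  refine ⟨K, hK1, fun V _ G hG h => ?_⟩
  obtain ⟨H, hGH, n, B, hB, hp⟩ := q4Q (fun _ G => EdgeExact G (1 / max C 1)) V G hG
    fun W _ H hH h4 hm => EdgeIso.edgeExact hD fun _ =>
      ST.H626.EdgeIso.mono' (h W H hH h4 hm) (le_max_left _ _)
  have hG1 : EdgeIso G K := by
    refine hK V G H hGH hG ⟨n, B, hB, fun t ht => ?_⟩
    obtain ⟨g1, g2, -⟩ := hp t ht
    refine ⟨g1, ?_⟩
    rcases g2 with g2 | g2
    · exact (hT _ _ (tw_small _ (by omega))).mono (min_le_left _ _)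
    · exact g2.mono (min_le_right _ _)
  have h4 : EdgeExact G (1 / K) := EdgeIso.edgeExact (by linarith) fun _ => hG1
  have h5 := h4.distortion (by positivity) hG
  rw [one_div_one_div] at h5
  exact ⟨hG1, h5⟩

/-- the same for planar graphs, thin graphs, graphs without a `K₅` minor and any `EdgeIso C` -/
theorem mix4e (C : ℝ) (k w t : ℕ) : ∃ K : ℝ, 1 ≤ K ∧ ∀ (V : Type) [Finite V] (G : SimpleGraph V),
    G.Connected →
    (∀ (W : Type) [Finite W] (H : SimpleGraph W), H.Connected → Quasi4 H → IsMinor H G →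
      ST.H945.PlaneTw k w t W H ∨ ¬ IsMinor (⊤ : SimpleGraph (Fin 5)) H ∨ EdgeIso H C) →
      EdgeIso G K ∧ DistortionLE G K := by
  obtain ⟨C0, -, -, -, -, h4, -⟩ := ST.H945.all6
  obtain ⟨K1, hK1⟩ := h4 k w t
  obtain ⟨C5, -, hC5, -⟩ := Vale.Agent.P235.H492.k5_mix K5.H56.k5free
  obtain ⟨K, hK, hK'⟩ := ei4 (max K1 (max C5 C))
  refine ⟨K, hK, fun V _ G hG h => hK' V G hG fun W _ H hH hq hm => ?_⟩
  rcases h W H hH hq hm with h | h | h
  · exact ST.H626.EdgeIso.mono' (hK1 W H hH (EdgeSumOf.base h)).1 (le_max_left _ _)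
  · exact ST.H626.EdgeIso.mono' (hC5 W H hH h).1 ((le_max_left _ _).trans (le_max_right _ _))
  · exact ST.H626.EdgeIso.mono' h ((le_max_right _ _).trans (le_max_right _ _))

end Vale.Agent.P235.K5.H492
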