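import Vale.Agent.P235.K5.H281.Fin
import Vale.Agent.P235.K5.W.H246.Trich

/-!
# Sums over at most three vertices of the internally 4-connected minors (helper492)

Every finite connected graph `G` is a spanning subgraph of a sum, along cliques with at most three
vertices, of connected minors of `G` which are internally 4-connected.
-/

set_option autoImplicit false

namespace Vale.Agent.P235.K5.H492

open SimpleGraph Vale.Agent.P235.K5 Vale.Agent.P235.H134 Vale.Agent.P235.H56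
open Vale.Agent.P235.K5.H281

/-- **Internally 4-connected**: 3-connected, and of two sides of a set of at most three vertices at
least one has at most one vertex. (Graphs with at most four vertices are allowed if they are
3-connected in the sense of `Conn3`.) -/
def Int4 {V : Type} (G : SimpleGraph V) : Prop :=
  Conn3 G ∧ ∀ S C D : Set V, S.ncard ≤ 3 → Disjoint C D → Disjoint C S → Disjoint D S →
    C ∪ D ∪ S = Set.univ → (∀ u ∈ C, ∀ v ∈ D, ¬ G.Adj u v) → C.Subsingleton ∨ D.Subsingleton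

/-- three disjoint, connected, pairwise touching sets, each with one vertex of `X`: a triangle -/
theorem minorT {V : Type} {G : SimpleGraph V} {X S A B C : Set V} {x y z : V}
    (hS : ∀ v ∈ S, v = x ∨ v = y ∨ v = z)
    (hA : (G.induce A).Connected) (hB : (G.induce B).Connected) (hC : (G.induce C).Connected)
    (hAB : Disjoint A B) (hAC : Disjoint A C) (hBC : Disjoint B C)
    (xA : x ∈ A) (yB : y ∈ B) (zC : z ∈ C)
    (hAX : ∀ v ∈ A, v ∈ X → v = x) (hBX : ∀ v ∈ B, v ∈ X → v = y) (hCX : ∀ v ∈ C, v ∈ X → v = z)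
    (eAB : ∃ u ∈ A, ∃ v ∈ B, G.Adj u v) (eAC : ∃ u ∈ A, ∃ v ∈ C, G.Adj u v)
    (eBC : ∃ u ∈ B, ∃ v ∈ C, G.Adj u v) :
    IsMinor ((G ⊔ clq S).induce X) G := by
  classical
  have hxy : x ≠ y := fun h => Set.disjoint_left.1 hAB xA (h ▸ yB)
  have hxz : x ≠ z := fun h => Set.disjoint_left.1 hAC xA (h ▸ zC)
  have hyz : y ≠ z := fun h => Set.disjoint_left.1 hBC yB (h ▸ zC)
  let ν : V → Set V := fun v =>
    {p | p = v ∨ (v = x ∧ p ∈ A) ∨ (v = y ∧ p ∈ B) ∨ (v = z ∧ p ∈ C)}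
  have hνx : ν x = A := by
    ext p
    constructor
    · rintro (h | ⟨-, h⟩ | ⟨h, -⟩ | ⟨h, -⟩)
      · exact h ▸ xA
      · exact h
      · exact absurd h hxy
      · exact absurd h hxz
    · exact fun h => Or.inr (Or.inl ⟨rfl, h⟩)
  have hνy : ν y = B := by
    ext p
    constructor
    · rintro (h | ⟨h, -⟩ | ⟨-, h⟩ | ⟨h, -⟩)
      · exact h ▸ yB
      · exact absurd h.symm hxy
      · exact h
      · exact absurd h hyz
    · exact fun h => Or.inr (Or.inr (Or.inl ⟨rfl, h⟩))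
  have hνz : ν z = C := by
    ext p
    constructor
    · rintro (h | ⟨h, -⟩ | ⟨h, -⟩ | ⟨-, h⟩)
      · exact h ▸ zC
      · exact absurd h.symm hxz
      · exact absurd h.symm hyz
      · exact h
    · exact fun h => Or.inr (Or.inr (Or.inr ⟨rfl, h⟩))
  have hνo : ∀ v, v ≠ x → v ≠ y → v ≠ z → ν v = {v} := by
    intro v h1 h2 h3
    ext p
    constructor
    · rintro (h | ⟨h, -⟩ | ⟨h, -⟩ | ⟨h, -⟩)
      · exact h
      · exact absurd h h1
      · exact absurd h h2
      · exact absurd h h3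
    · exact fun h => Or.inl h
  have hself : ∀ v, v ∈ ν v := fun v => Or.inl rfl
  refine ⟨fun v => ν v.1, fun v => ?_, fun v w hvw => ?_, fun v w hvw => ?_⟩
  · show (G.induce (ν v.1)).Connected
    by_cases h1 : v.1 = x
    · rw [h1, hνx]; exact hA
    by_cases h2 : v.1 = y
    · rw [h2, hνy]; exact hB
    by_cases h3 : v.1 = z
    · rw [h3, hνz]; exact hC
    rw [hνo v.1 h1 h2 h3]
    exact conn_single G v.1
  · show Disjoint (ν v.1) (ν w.1)
    have hne : v.1 ≠ w.1 := fun h => hvw (Subtype.ext h)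
    have one : ∀ (a b : V), a ∈ X → b ∈ X → a ∈ ν b → a = b := by
      rintro a b ha _ (h | ⟨h, h'⟩ | ⟨h, h'⟩ | ⟨h, h'⟩)
      · exact h
      · exact (hAX a h' ha).trans h.symm
      · exact (hBX a h' ha).trans h.symm
      · exact (hCX a h' ha).trans h.symm
    rw [Set.disjoint_left]
    intro p hp hq
    by_cases h1 : p = v.1
    · exact hne (one v.1 w.1 v.2 w.2 (h1 ▸ hq))
    by_cases h2 : p = w.1
    · exact hne (one w.1 v.1 w.2 v.2 (h2 ▸ hp)).symm
    rcases hp with hp | ⟨hp, hp'⟩ | ⟨hp, hp'⟩ | ⟨hp, hp'⟩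
    · exact h1 hp
    · rcases hq with hq | ⟨hq, hq'⟩ | ⟨hq, hq'⟩ | ⟨hq, hq'⟩
      · exact h2 hq
      · exact hne (hp.trans hq.symm)
      · exact Set.disjoint_left.1 hAB hp' hq'
      · exact Set.disjoint_left.1 hAC hp' hq'
    · rcases hq with hq | ⟨hq, hq'⟩ | ⟨hq, hq'⟩ | ⟨hq, hq'⟩
      · exact h2 hq
      · exact Set.disjoint_left.1 hAB hq' hp'
      · exact hne (hp.trans hq.symm)
      · exact Set.disjoint_left.1 hBC hp' hq'
    · rcases hq with hq | ⟨hq, hq'⟩ | ⟨hq, hq'⟩ | ⟨hq, hq'⟩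
      · exact h2 hq
      · exact Set.disjoint_left.1 hAC hq' hp'
      · exact Set.disjoint_left.1 hBC hq' hp'
      · exact hne (hp.trans hq.symm)
  · show ∃ p ∈ ν v.1, ∃ q ∈ ν w.1, G.Adj p q
    have exy : ∃ p ∈ ν x, ∃ q ∈ ν y, G.Adj p q := by rw [hνx, hνy]; exact eAB
    have exz : ∃ p ∈ ν x, ∃ q ∈ ν z, G.Adj p q := by rw [hνx, hνz]; exact eAC
    have eyz : ∃ p ∈ ν y, ∃ q ∈ ν z, G.Adj p q := by rw [hνy, hνz]; exact eBC
    have hsw : ∀ a b, (∃ p ∈ ν a, ∃ q ∈ ν b, G.Adj p q) → ∃ p ∈ ν b, ∃ q ∈ ν a, G.Adj p q := by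
      rintro a b ⟨p, hp, q, hq, h⟩
      exact ⟨q, hq, p, hp, h.symm⟩
    have hvw' : G.Adj v.1 w.1 ∨ (v.1 ≠ w.1 ∧ v.1 ∈ S ∧ w.1 ∈ S) := hvw
    rcases hvw' with h | ⟨hne, hv, hw⟩
    · exact ⟨v.1, hself _, w.1, hself _, h⟩
    · have hv' := hS v.1 hv
      have hw' := hS w.1 hw
      generalize v.1 = a at hne hv' ⊢
      generalize w.1 = b at hne hw' ⊢
      rcases hv' with rfl | rfl | rfl <;> rcases hw' with rfl | rfl | rfl
      all_goals first
        | exact absurd rfl hne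
        | exact exy
        | exact exz
        | exact eyz
        | exact hsw _ _ exy
        | exact hsw _ _ exz
        | exact hsw _ _ eyz

/-- a connected set which is cut in two nonempty parts: the parts touch -/
theorem parts_touch {V : Type} {G : SimpleGraph V} {D P : Set V} (hD : (G.induce D).Connected)
    (hPD : P ⊆ D) (hP : P.Nonempty) (hQ : (D \ P).Nonempty) :
    ∃ u ∈ P, ∃ v ∈ D \ P, G.Adj u v := by
  classical
  obtain ⟨p, hp⟩ := hP
  obtain ⟨q, hq⟩ := hQ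
  have key : ∀ (a b : D) (w : (G.induce D).Walk a b), a.1 ∈ P → b.1 ∉ P →
      ∃ u ∈ P, ∃ v ∈ D \ P, G.Adj u v := by
    intro a b w
    induction w with
    | nil => intro h h'; exact absurd h h'
    | @cons a c b hac w ih =>
      intro ha hb
      by_cases hc : c.1 ∈ P
      · exact ih hc hb
      · exact ⟨a.1, ha, c.1, ⟨c.2, hc⟩, hac⟩
  obtain ⟨w⟩ := hD.preconnected ⟨p, hPD hp⟩ ⟨q, hq.1⟩
  exact key _ _ w hp hq.2

theorem common : ∀ i j i' j' : Fin 3, i ≠ j → i' ≠ j' →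
    ∃ c : Fin 3, (c = i ∨ c = j) ∧ (c = i' ∨ c = j') := by decide

theorem second : ∀ i j c : Fin 3, i ≠ j → ∃ a : Fin 3, a ≠ c ∧ (a = i ∨ a = j) := by decide

theorem third : ∀ b c : Fin 3, ∃ a : Fin 3, a ≠ b ∧ a ≠ c := by decide

theorem cover3 : ∀ a b c : Fin 3, a ≠ b → a ≠ c → b ≠ c → ∀ k, k = a ∨ k = b ∨ k = c := by
  decide

theorem other3 : ∀ j0 : Fin 3, ∃ j1 : Fin 3, j1 ≠ j0 := by decide

theorem ne01 : (0 : Fin 3) ≠ 1 := by decide

theorem ne02 : (0 : Fin 3) ≠ 2 := by decide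

theorem ne12 : (1 : Fin 3) ≠ 2 := by decide

/-- **The triangle minor behind three vertices.** In a 3-connected graph let `D` be a set with at
least two vertices, all outer neighbours of which are `s 0`, `s 1`, `s 2`. Then every set `X`
disjoint from `D` with the triangle on `s 0`, `s 1`, `s 2` is a minor. -/
theorem side_minor {V : Type} [Finite V] {G : SimpleGraph V} (h3 : Conn3 G) {s : Fin 3 → V}
    (hs : Function.Injective s) {D X S : Set V} (hS : ∀ v ∈ S, v = s 0 ∨ v = s 1 ∨ v = s 2)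
    (hsX : ∀ j, s j ∈ X) (hDX : Disjoint D X)
    (hN : ∀ u ∈ D, ∀ v, G.Adj u v → v ∈ D ∨ v = s 0 ∨ v = s 1 ∨ v = s 2)
    (hD : ¬ D.Subsingleton) : IsMinor ((G ⊔ clq S).induce X) G := by
  classical
  have h01 : s 0 ≠ s 1 := fun h => by simpa using hs h
  have h02 : s 0 ≠ s 2 := fun h => by simpa using hs h
  have h12 : s 1 ≠ s 2 := fun h => by simpa using hs h
  have hsD : ∀ j, s j ∉ D := fun j h => Set.disjoint_left.1 hDX h (hsX j)
  have hND : D.Nonempty := by
    rcases D.eq_empty_or_nonempty with h | h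
    · exact absurd (h ▸ Set.subsingleton_empty) hD
    · exact h
  obtain ⟨d, hd⟩ := hND
  obtain ⟨K, hdK, hKD, hK, hcl⟩ := H281.comp (G := G) hd
  by_cases hKD' : D ⊆ K
  · -- `D` is connected
    have hDK : D = K := Set.Subset.antisymm hKD' hKD
    have hDc : (G.induce D).Connected := hDK ▸ hK
    have hlab : ∀ j, ∃ x ∈ D, G.Adj x (s j) := by
      obtain ⟨K', hK'D, -, a0, a1, a2⟩ := touch3 h3 h01 h02 h12 ⟨d, hd⟩ (hsD 0) (hsD 1) (hsD 2) hN
      have up : ∀ j, (∃ u ∈ K', G.Adj u (s j)) → ∃ x ∈ D, G.Adj x (s j) :=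
        fun j ⟨u, hu, h⟩ => ⟨u, hK'D hu, h⟩
      intro j
      fin_cases j
      · exact up 0 a0
      · exact up 1 a1
      · exact up 2 a2
    rcases W.H246.trich V G D (fun v j => G.Adj v (s j)) hDc hlab with hF | hT | hH
    · -- FAT
      obtain ⟨P, hPD, hPc, hQc, ⟨i, j, hij, hi, hj⟩, i', j', hij', hi', hj'⟩ := hF
      -- the assignment
      have hassign : ∃ a b c : Fin 3, a ≠ b ∧ a ≠ c ∧ b ≠ c ∧ (∃ x ∈ P, G.Adj x (s a)) ∧
          (∃ x ∈ P, G.Adj x (s c)) ∧ (∃ x ∈ D \ P, G.Adj x (s b)) ∧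
          ∃ x ∈ D \ P, G.Adj x (s c) := by
        have hp : ∀ k, k = i ∨ k = j → ∃ x ∈ P, G.Adj x (s k) := by
          rintro k (rfl | rfl)
          · exact hi
          · exact hj
        have hq : ∀ k, k = i' ∨ k = j' → ∃ x ∈ D \ P, G.Adj x (s k) := by
          rintro k (rfl | rfl)
          · exact hi'
          · exact hj'
        obtain ⟨c, hc1, hc2⟩ := common i j i' j' hij hij'
        obtain ⟨b, hbc, hb⟩ := second i' j' c hij'
        obtain ⟨a, hab, hac⟩ := third b c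
        obtain ⟨a', ha'c, ha'⟩ := second i j c hij
        obtain ⟨x, hx, hxa⟩ := hlab a
        by_cases hxP : x ∈ P
        · exact ⟨a, b, c, hab, hac, hbc, ⟨x, hxP, hxa⟩, hp c hc1, hq b hb, hq c hc2⟩
        · rcases cover3 a b c hab hac hbc a' with h | h | h
          · exact ⟨a, b, c, hab, hac, hbc, h ▸ hp a' ha', hp c hc1, hq b hb, hq c hc2⟩
          · exact ⟨b, a, c, hab.symm, hbc, hac, h ▸ hp a' ha', hp c hc1, ⟨x, ⟨hx, hxP⟩, hxa⟩,
              hq c hc2⟩
          · exact absurd h ha'c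
      obtain ⟨a, b, c, hab, hac, hbc, ⟨xa, hxa, exa⟩, ⟨xc, hxc, exc⟩, ⟨yb, hyb, eyb⟩,
        ⟨yc, hyc, eyc⟩⟩ := hassign
      obtain ⟨u, hu, v, hv, huv⟩ := parts_touch hDc hPD ⟨xa, hxa⟩ ⟨yb, hyb⟩
      have hsab : s a ≠ s b := fun h => hab (hs h)
      have hsac : s a ≠ s c := fun h => hac (hs h)
      have hsbc : s b ≠ s c := fun h => hbc (hs h)
      refine minorT (x := s a) (y := s b) (z := s c) (A := insert (s a) P)
        (B := insert (s b) (D \ P)) (C := {s c}) ?_ (conn_insert hPc ⟨xa, hxa, exa⟩)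
        (conn_insert hQc ⟨yb, hyb, eyb⟩) (conn_single G (s c)) ?_ ?_ ?_ (Or.inl rfl) (Or.inl rfl)
        rfl ?_ ?_ ?_ ⟨u, Or.inr hu, v, Or.inr hv, huv⟩ ⟨xc, Or.inr hxc, s c, rfl, exc⟩
        ⟨yc, Or.inr hyc, s c, rfl, eyc⟩
      · intro v hv
        have key : ∀ k, s k = s a ∨ s k = s b ∨ s k = s c := by
          intro k
          rcases cover3 a b c hab hac hbc k with rfl | rfl | rfl
          · exact Or.inl rfl
          · exact Or.inr (Or.inl rfl)
          · exact Or.inr (Or.inr rfl)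
        rcases hS v hv with rfl | rfl | rfl
        · exact key 0
        · exact key 1
        · exact key 2
      · rw [Set.disjoint_left]
        rintro p (rfl | hp) (hq | hq)
        · exact hsab hq
        · exact hsD a hq.1
        · exact hsD b (hq ▸ hPD hp)
        · exact hq.2 hp
      · rw [Set.disjoint_left]
        rintro p (rfl | hp) hq
        · exact hsac hq
        · exact hsD c ((show p = s c from hq) ▸ hPD hp)
      · rw [Set.disjoint_left]
        rintro p (rfl | hp) hq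
        · exact hsbc hq
        · exact hsD c ((show p = s c from hq) ▸ hp.1)
      · rintro p (rfl | hp) hpX
        · rfl
        · exact absurd hpX (Set.disjoint_left.1 hDX (hPD hp))
      · rintro p (rfl | hp) hpX
        · rfl
        · exact absurd hpX (Set.disjoint_left.1 hDX hp.1)
      · intro p hp _
        exact hp
    · -- TRI
      obtain ⟨g, hg1, hg2, hg3⟩ := hT
      have hx : ∀ j, ∃ x ∈ {v | v ∈ D ∧ g v = j}, G.Adj x (s j) := by
        intro j
        obtain ⟨x, hx, hxj⟩ := hlab j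
        exact ⟨x, ⟨hx, hg3 x hx j hxj⟩, hxj⟩
      have hdis : ∀ i j, i ≠ j →
          Disjoint (insert (s i) {v | v ∈ D ∧ g v = i}) (insert (s j) {v | v ∈ D ∧ g v = j}) := by
        intro i j hij
        rw [Set.disjoint_left]
        rintro p (rfl | hp) (hq | hq)
        · exact hij (hs hq)
        · exact hsD i hq.1
        · exact hsD j (hq ▸ hp.1)
        · exact hij (hp.2.symm.trans hq.2)
      have hon : ∀ j, ∀ v ∈ insert (s j) {v | v ∈ D ∧ g v = j}, v ∈ X → v = s j := by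
        rintro j v (rfl | hv) hvX
        · rfl
        · exact absurd hvX (Set.disjoint_left.1 hDX hv.1)
      have hedge : ∀ i j, i ≠ j → ∃ u ∈ insert (s i) {v | v ∈ D ∧ g v = i},
          ∃ v ∈ insert (s j) {v | v ∈ D ∧ g v = j}, G.Adj u v := by
        intro i j hij
        obtain ⟨u, hu, v, hv, hgu, hgv, huv⟩ := hg2 i j hij
        exact ⟨u, Or.inr ⟨hu, hgu⟩, v, Or.inr ⟨hv, hgv⟩, huv⟩
      exact minorT (x := s 0) (y := s 1) (z := s 2) hS (conn_insert (hg1 0) (hx 0))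
        (conn_insert (hg1 1) (hx 1)) (conn_insert (hg1 2) (hx 2)) (hdis 0 1 ne01)
        (hdis 0 2 ne02) (hdis 1 2 ne12) (Or.inl rfl) (Or.inl rfl) (Or.inl rfl)
        (hon 0) (hon 1) (hon 2) (hedge 0 1 ne01) (hedge 0 2 ne02)
        (hedge 1 2 ne12)
    · -- HUB
      exfalso
      obtain ⟨h, hh, hH⟩ := hH
      have hne : ∃ e ∈ D, e ≠ h := by
        by_contra hno
        refine hD fun a ha b hb => ?_
        by_cases h1 : a = h
        · by_cases h2 : b = h
          · rw [h1, h2]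
          · exact absurd ⟨b, hb, h2⟩ hno
        · exact absurd ⟨a, ha, h1⟩ hno
      obtain ⟨e, he, heh⟩ := hne
      obtain ⟨L, heL, hLD, hL, hLcl⟩ := H281.comp (G := G) (C := D \ {h}) ⟨he, heh⟩
      have hhL : h ∉ L := fun h' => (hLD h').2 rfl
      have hLD' : L ⊆ D := fun v hv => (hLD hv).1
      have hno := hH L hLD' hhL hL
      -- one label
      have hone : ∃ j0 : Fin 3, ∀ u ∈ L, ∀ j, G.Adj u (s j) → j = j0 := by
        by_cases hex : ∃ u ∈ L, ∃ j, G.Adj u (s j)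
        · obtain ⟨u, hu, j0, hj0⟩ := hex
          refine ⟨j0, fun v hv j hj => ?_⟩
          by_contra hne
          exact hno ⟨j, j0, hne, ⟨v, hv, hj⟩, ⟨u, hu, hj0⟩⟩
        · exact ⟨0, fun u hu j hj => absurd ⟨u, hu, j, hj⟩ hex⟩
      obtain ⟨j0, hj0⟩ := hone
      obtain ⟨j1, hj1⟩ := other3 j0
      have hLN : ∀ u ∈ L, ∀ v, G.Adj u v → v ∈ L ∨ v = h ∨ v = s j0 := by
        intro u hu v huv
        by_cases hvh : v = h
        · exact Or.inr (Or.inl hvh)
        have fin : ∀ j, v = s j → v = s j0 := fun j hj => by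
          have := hj0 u hu j (hj ▸ huv)
          rw [hj, this]
        rcases hN u (hLD' hu) v huv with h' | h' | h' | h'
        · exact Or.inl (hLcl u hu v huv ⟨h', hvh⟩)
        · exact Or.inr (Or.inr (fin 0 h'))
        · exact Or.inr (Or.inr (fin 1 h'))
        · exact Or.inr (Or.inr (fin 2 h'))
      rcases h3 h (s j0) L ⟨e, heL⟩ hhL (fun h' => hsD j0 (hLD' h')) hLN (s j1) with h' | h' | h'
      · exact hsD j1 (hLD' h')
      · exact hsD j1 (h' ▸ hh)
      · exact hj1 (hs h')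
  · -- two components
    rw [Set.not_subset] at hKD'
    obtain ⟨e, heD, heK⟩ := hKD'
    obtain ⟨L, heL, hLD, hL, hLcl⟩ := H281.comp (G := G) heD
    have hKL : Disjoint K L := by
      rw [Set.disjoint_left]
      intro p hpK hpL
      -- `K ∪ L` would be one component
      have key : ∀ (a b : L) (w : (G.induce L).Walk a b), a.1 ∈ K → b.1 ∈ K := by
        intro a b w
        induction w with
        | nil => exact fun h => h
        | @cons a c b hac w ih => exact fun ha => ih (hcl a.1 ha c.1 hac (hLD c.2))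
      obtain ⟨w⟩ := hL.preconnected ⟨p, hpL⟩ ⟨e, heL⟩
      exact heK (key _ _ w hpK)
    have hNof : ∀ M : Set V, M ⊆ D → (∀ u ∈ M, ∀ v, G.Adj u v → v ∈ D → v ∈ M) →
        ∀ u ∈ M, ∀ v, G.Adj u v → v ∈ M ∨ v = s 0 ∨ v = s 1 ∨ v = s 2 := by
      intro M hM hMc u hu v huv
      rcases hN u (hM hu) v huv with h | h
      · exact Or.inl (hMc u hu v huv h)
      · exact Or.inr h
    have sees : ∀ M : Set V, M ⊆ D → M.Nonempty →
        (∀ u ∈ M, ∀ v, G.Adj u v → v ∈ D → v ∈ M) →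
        (∃ u ∈ M, G.Adj u (s 0)) ∧ (∃ u ∈ M, G.Adj u (s 1)) ∧ ∃ u ∈ M, G.Adj u (s 2) := by
      intro M hM hMn hMc
      obtain ⟨M', hM', -, ⟨a, ha, ha'⟩, ⟨b, hb, hb'⟩, ⟨c, hc, hc'⟩⟩ := touch3 h3 h01 h02 h12 hMn
        (fun h => hsD 0 (hM h)) (fun h => hsD 1 (hM h)) (fun h => hsD 2 (hM h)) (hNof M hM hMc)
      exact ⟨⟨a, hM' ha, ha'⟩, ⟨b, hM' hb, hb'⟩, ⟨c, hM' hc, hc'⟩⟩
    obtain ⟨k0, k1, k2⟩ := sees K hKD ⟨d, hdK⟩ hcl
    obtain ⟨-, l1, l2⟩ := sees L hLD ⟨e, heL⟩ hLcl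
    have hm := minor3 (X := X) (s := s 0) (t := s 1) (w := s 2) (K := K) (L := L) (hsX 0) (hsX 1)
      h01 hK hL (Set.disjoint_of_subset_left hKD hDX) (Set.disjoint_of_subset_left hLD hDX) hKL
      k0 k1 k2 l1 l2
    obtain ⟨μ, m1, m2, m3⟩ := hm
    refine ⟨μ, m1, m2, fun a b hab => m3 a b ?_⟩
    rcases hab with h | ⟨h, ha, hb⟩
    · exact Or.inl h
    · exact Or.inr ⟨h, hS _ ha, hS _ hb⟩

end Vale.Agent.P235.K5.H492
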